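import Vale.Agent.P038.H139.Steps

/-!
# P038 (H382): the comparison of the two minimum cuts

`c(S) = w(N[S]) - w(S)` is the weight of the outer boundary of `S`. For every oriented graph and
all positive weights some proper set `X` has `c(X) ≤ c(N[X])`.
-/

namespace Vale.Agent.P038.H382

open Finset Vale.Agent.P038.H139

variable {V : Type*} [Fintype V] [DecidableEq V]

/-- The weight of the outer boundary. -/
noncomputable def cc (D : OGraph V) (w : V → ℝ) (S : Finset V) : ℝ := W w (cl D S) - W w S

theorem W_union_inter (w : V → ℝ) (S T : Finset V) :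
    W w (S ∪ T) + W w (S ∩ T) = W w S + W w T := Finset.sum_union_inter

theorem cc_submod {D : OGraph V} {w : V → ℝ} (hw : ∀ v, 0 ≤ w v) (S T : Finset V) :
    cc D w (S ∪ T) + cc D w (S ∩ T) ≤ cc D w S + cc D w T := by
  have h1 := W_union_inter w (cl D S) (cl D T)
  have h2 := W_union_inter w S T
  have h3 : W w (cl D (S ∩ T)) ≤ W w (cl D S ∩ cl D T) := by
    refine W_mono hw (Finset.subset_inter ?_ ?_)
    · exact cl_mono Finset.inter_subset_left
    · exact cl_mono Finset.inter_subset_right
  unfold cc
  rw [cl_union]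
  linarith

/-! ### Minimum of `c` over an interval -/

/-- The minimum of `c` over the sets between `A` and `B`. -/
noncomputable def kap (D : OGraph V) (w : V → ℝ) (A B : Finset V) : ℝ :=
  if h : (Finset.Icc A B).Nonempty then (Finset.Icc A B).inf' h (cc D w) else 0

theorem kap_le {D : OGraph V} {w : V → ℝ} {A B S : Finset V} (h1 : A ⊆ S) (h2 : S ⊆ B) :
    kap D w A B ≤ cc D w S := by
  have hS : S ∈ Finset.Icc A B := Finset.mem_Icc.2 ⟨h1, h2⟩
  unfold kap
  rw [dif_pos ⟨S, hS⟩]
  exact Finset.inf'_le _ hS

theorem kap_mem {D : OGraph V} {w : V → ℝ} {A B : Finset V} (h : A ⊆ B) :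
    ∃ S, A ⊆ S ∧ S ⊆ B ∧ kap D w A B = cc D w S := by
  have hne : (Finset.Icc A B).Nonempty := ⟨A, Finset.mem_Icc.2 ⟨subset_rfl, h⟩⟩
  obtain ⟨S, hS, hS'⟩ := Finset.exists_mem_eq_inf' hne (cc D w)
  obtain ⟨h1, h2⟩ := Finset.mem_Icc.1 hS
  refine ⟨S, h1, h2, ?_⟩
  unfold kap
  rw [dif_pos hne]
  exact hS'

/-- A larger interval has a smaller minimum. -/
theorem kap_anti {D : OGraph V} {w : V → ℝ} {A A' B : Finset V} (h : A' ⊆ A) (hB : A ⊆ B) :
    kap D w A' B ≤ kap D w A B := by
  obtain ⟨S, h1, h2, h3⟩ := kap_mem (D := D) (w := w) hB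
  rw [h3]
  exact kap_le (h.trans h1) h2

theorem kap_self {D : OGraph V} {w : V → ℝ} {A : Finset V} : kap D w A A = cc D w A := by
  obtain ⟨S, h1, h2, h3⟩ := kap_mem (D := D) (w := w) (subset_refl A)
  rw [h3, Finset.Subset.antisymm h2 h1]

/-! ### The layer cake lemma -/

theorem layer {w : V → ℝ} (hw : ∀ v, 0 ≤ w v) (U : Finset V) (G : V → Finset V)
    (hall : ∀ K ⊆ U, W w K ≤ W w (K.biUnion G)) (n : ℕ) :
    ∀ f g : V → ℝ, (∀ z, 0 ≤ f z) → (∀ a, 0 ≤ g a) → (∀ z, f z ≠ 0 → z ∈ U) →
      (∀ z, ∀ a ∈ G z, f z ≤ g a) → (Finset.univ.filter fun z => f z ≠ 0).card = n →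
      ∑ z, w z * f z ≤ ∑ a, w a * g a := by
  induction n using Nat.strong_induction_on with
  | _ n ih =>
    intro f g hf hg hU hfg hn
    set K := Finset.univ.filter fun z => f z ≠ 0 with hK
    have mK : ∀ z, z ∈ K ↔ f z ≠ 0 := fun z => by simp [hK]
    rcases K.eq_empty_or_nonempty with hKe | hKne
    · have h0 : ∀ z, f z = 0 := by
        intro z
        by_contra hz
        have := (mK z).2 hz
        rw [hKe] at this
        simp at this
      have h1 : ∑ z, w z * f z = 0 := Finset.sum_eq_zero fun z _ => by rw [h0 z, mul_zero]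
      rw [h1]
      exact Finset.sum_nonneg fun a _ => mul_nonneg (hw a) (hg a)
    · obtain ⟨z0, hz0, hmin⟩ := Finset.exists_min_image K f hKne
      set m := f z0 with hm
      have hmpos : 0 < m := lt_of_le_of_ne (hf z0) (Ne.symm ((mK z0).1 hz0))
      set GK := K.biUnion G with hGK
      set f' : V → ℝ := fun z => f z - if z ∈ K then m else 0 with hf'
      set g' : V → ℝ := fun a => g a - if a ∈ GK then m else 0 with hg'
      have hgm : ∀ a ∈ GK, m ≤ g a := by
        intro a ha
        obtain ⟨z, hz, haz⟩ := Finset.mem_biUnion.1 ha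
        exact (hmin z hz).trans (hfg z a haz)
      have h1 : ∀ z, 0 ≤ f' z := by
        intro z
        simp only [hf']
        split_ifs with hz
        · have := hmin z hz
          linarith
        · have := hf z
          linarith
      have h2 : ∀ a, 0 ≤ g' a := by
        intro a
        simp only [hg']
        split_ifs with ha
        · have := hgm a ha
          linarith
        · have := hg a
          linarith
      have h3 : ∀ z, f' z ≠ 0 → z ∈ K := by
        intro z hz
        by_contra hzK
        apply hz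
        simp only [hf']
        rw [if_neg hzK]
        have : f z = 0 := by
          by_contra hne
          exact hzK ((mK z).2 hne)
        rw [this]; ring
      have h4 : ∀ z, ∀ a ∈ G z, f' z ≤ g' a := by
        intro z a ha
        by_cases hz : z ∈ K
        · have haK : a ∈ GK := Finset.mem_biUnion.2 ⟨z, hz, ha⟩
          have := hfg z a ha
          simp only [hf', hg']
          rw [if_pos hz, if_pos haK]
          linarith
        · have : f' z = 0 := by
            by_contra hne
            exact hz (h3 z hne)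
          rw [this]
          exact h2 a
      have hlt : (Finset.univ.filter fun z => f' z ≠ 0).card < n := by
        rw [← hn]
        apply Finset.card_lt_card
        refine Finset.ssubset_iff_subset_ne.2 ⟨fun z hz => h3 z (Finset.mem_filter.1 hz).2, ?_⟩
        intro he
        have : z0 ∈ Finset.univ.filter fun z => f' z ≠ 0 := by
          rw [he]; exact hz0
        have h5 := (Finset.mem_filter.1 this).2
        apply h5
        simp only [hf']
        rw [if_pos hz0]
        linarith
      have h5 := ih _ hlt f' g' h1 h2 (fun z hz => hU z ((mK z).1 (h3 z hz))) h4 rfl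
      have e1 : ∑ z, w z * f z = ∑ z, w z * f' z + m * W w K := by
        have : W w K = ∑ z, if z ∈ K then w z else 0 := by
          unfold W
          rw [Finset.sum_ite_mem, Finset.univ_inter]
        rw [this, Finset.mul_sum, ← Finset.sum_add_distrib]
        refine Finset.sum_congr rfl fun z _ => ?_
        simp only [hf']
        split_ifs <;> ring
      have e2 : ∑ z, w z * g z = ∑ z, w z * g' z + m * W w GK := by
        have : W w GK = ∑ z, if z ∈ GK then w z else 0 := by
          unfold W
          rw [Finset.sum_ite_mem, Finset.univ_inter]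
        rw [this, Finset.mul_sum, ← Finset.sum_add_distrib]
        refine Finset.sum_congr rfl fun z _ => ?_
        simp only [hg']
        split_ifs <;> ring
      have h6 : W w K ≤ W w GK := hall K (fun z hz => hU z ((mK z).1 hz))
      have h7 := mul_le_mul_of_nonneg_left h6 hmpos.le
      rw [e1, e2]
      linarith

/-! ### The transpose -/

theorem swap (w : V → ℝ) (S : V → Finset V) :
    ∑ x, w x * W w (S x) = ∑ a, w a * W w (Finset.univ.filter fun x => a ∈ S x) := by
  have e1 : ∀ x, w x * W w (S x) = ∑ a, if a ∈ S x then w x * w a else 0 := by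
    intro x
    unfold W
    rw [Finset.sum_ite_mem, Finset.univ_inter, Finset.mul_sum]
  have e2 : ∀ a, w a * W w (Finset.univ.filter fun x => a ∈ S x) =
      ∑ x, if a ∈ S x then w x * w a else 0 := by
    intro a
    unfold W
    rw [Finset.sum_filter, Finset.mul_sum]
    refine Finset.sum_congr rfl fun x _ => ?_
    split_ifs
    · ring
    · ring
  rw [Finset.sum_congr rfl fun x _ => e1 x, Finset.sum_congr rfl fun a _ => e2 a,
    Finset.sum_comm]

theorem W_compl_eq {w : V → ℝ} {A B : Finset V} {a : V} (ha : a ∈ B)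
    (h : ∀ x, x ∈ A ↔ (x = a ∨ x ∉ B)) : W w A = W w Finset.univ - W w B + w a := by
  have e : A = insert a (Finset.univ \ B) := by
    ext x
    rw [h x, Finset.mem_insert, Finset.mem_sdiff]
    simp
  have hn : a ∉ Finset.univ \ B := fun h1 => (Finset.mem_sdiff.1 h1).2 ha
  have h1 : W w (insert a (Finset.univ \ B)) = w a + W w (Finset.univ \ B) :=
    Finset.sum_insert hn
  rw [e, h1, W_sdiff (Finset.subset_univ B)]
  ring

theorem W_compl_le {w : V → ℝ} (hw : ∀ v, 0 ≤ w v) {A B : Finset V} {a : V} (ha : a ∈ B)
    (h : ∀ x, x ∈ A → (x = a ∨ x ∉ B)) : W w A ≤ W w Finset.univ - W w B + w a := by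
  have h1 := W_compl_eq (w := w) (A := insert a (Finset.univ \ B)) ha (fun x => by
    rw [Finset.mem_insert, Finset.mem_sdiff]
    simp)
  rw [← h1]
  refine W_mono hw fun x hx => ?_
  rw [Finset.mem_insert, Finset.mem_sdiff]
  rcases h x hx with h2 | h2
  · exact Or.inl h2
  · exact Or.inr ⟨Finset.mem_univ _, h2⟩

/-! ### Feasible pairs -/

/-- Feasible pairs of families. -/
structure Feas (D : OGraph V) (R T : V → Finset V) : Prop where
  r0 : ∀ a, a ∈ R a
  r1 : ∀ a b, D.arc a b → b ∈ R a
  t0 : ∀ a, a ∈ T a
  t1 : ∀ a b, D.arc a b → b ∈ T a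
  disj : ∀ a x, x ∈ R a → a ∈ T x → x = a

theorem Feas.symm {D : OGraph V} {R T : V → Finset V} (h : Feas D R T) : Feas D T R :=
  ⟨h.t0, h.t1, h.r0, h.r1, fun a x h1 h2 => (h.disj x a h2 h1).symm⟩

/-- The energy. -/
noncomputable def En (D : OGraph V) (w : V → ℝ) (R T : V → Finset V) : ℝ :=
  ∑ a, w a * cc D w (R a) + ∑ a, w a * cc D w (T a)

theorem En_symm {D : OGraph V} {w : V → ℝ} (R T : V → Finset V) : En D w R T = En D w T R := by
  unfold En; ring

/-- Optimal pairs. -/
structure OptP (D : OGraph V) (w : V → ℝ) (R T : V → Finset V) : Prop extends Feas D R T where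
  min : ∀ R' T', Feas D R' T' → En D w R T ≤ En D w R' T'

theorem OptP.symm {D : OGraph V} {w : V → ℝ} {R T : V → Finset V} (h : OptP D w R T) :
    OptP D w T R :=
  ⟨h.toFeas.symm, fun R' T' h' => by
    rw [En_symm T R, En_symm R' T']
    exact h.min _ _ h'.symm⟩

theorem exists_optP (D : OGraph V) (w : V → ℝ) : ∃ R T, OptP D w R T := by
  have h0 : Feas D (fun a => cl D {a}) (fun a => cl D {a}) := by
    have m : ∀ a x, x ∈ cl D {a} ↔ x = a ∨ D.arc a x := by
      intro a x
      rw [mem_cl]
      simp
    refine ⟨fun a => (m a a).2 (Or.inl rfl), fun a b h => (m a b).2 (Or.inr h),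
      fun a => (m a a).2 (Or.inl rfl), fun a b h => (m a b).2 (Or.inr h), ?_⟩
    intro a x h1 h2
    rcases (m a x).1 h1 with h1 | h1
    · exact h1
    · rcases (m x a).1 h2 with h2 | h2
      · exact h2.symm
      · exact absurd h2 (D.asymm _ _ h1)
  obtain ⟨p, hp, hmin⟩ := Set.exists_min_image
    {p : (V → Finset V) × (V → Finset V) | Feas D p.1 p.2} (fun p => En D w p.1 p.2)
    (Set.toFinite _) ⟨(_, _), h0⟩
  exact ⟨p.1, p.2, hp, fun R' T' h' => hmin (R', T') h'⟩

/-- Optimality of one row. -/
theorem OptP.row {D : OGraph V} {w : V → ℝ} {R T : V → Finset V} (hw : ∀ v, 0 < w v)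
    (h : OptP D w R T) (a : V) (Q : Finset V) (h1 : R a ⊆ Q)
    (h2 : ∀ x ∈ Q, x = a ∨ a ∉ T x) : cc D w (R a) ≤ cc D w Q := by
  have hf : Feas D (Function.update R a Q) T := by
    refine ⟨fun b => ?_, fun b x hbx => ?_, h.t0, h.t1, fun b x hx hb => ?_⟩
    · by_cases hb : b = a
      · subst hb
        rw [Function.update_self]
        exact h1 (h.r0 b)
      · rw [Function.update_of_ne hb]
        exact h.r0 b
    · by_cases hb : b = a
      · subst hb
        rw [Function.update_self]
        exact h1 (h.r1 b x hbx)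
      · rw [Function.update_of_ne hb]
        exact h.r1 b x hbx
    · by_cases hba : b = a
      · subst hba
        rw [Function.update_self] at hx
        rcases h2 x hx with h3 | h3
        · exact h3
        · exact absurd hb h3
      · rw [Function.update_of_ne hba] at hx
        exact h.disj b x hx hb
  have h3 := h.min _ _ hf
  have h4 : ∑ b, w b * cc D w (Function.update R a Q b) - ∑ b, w b * cc D w (R b) =
      w a * cc D w Q - w a * cc D w (R a) := by
    rw [← Finset.sum_sub_distrib, Finset.sum_eq_single a]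
    · rw [Function.update_self]
    · intro b _ hb
      rw [Function.update_of_ne hb, sub_self]
    · intro hb
      exact absurd (Finset.mem_univ a) hb
  unfold En at h3
  have h5 : w a * cc D w (R a) ≤ w a * cc D w Q := by linarith
  exact le_of_mul_le_mul_left h5 (hw a)

end Vale.Agent.P038.H382
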