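import Vale.Agent.P038.H382.M12

/-!
# P038 (H382): the main inequality between the two minimum cuts
-/

namespace Vale.Agent.P038.H382

open Finset Vale.Agent.P038.H139

variable {V : Type*} [Fintype V] [DecidableEq V]

open Classical in
/-- The intersection of the rows over the closed in-neighbourhood of `a`. -/
noncomputable def capI (D : OGraph V) (R : V → Finset V) (a : V) : Finset V :=
  Finset.univ.filter fun x => ∀ z, (z = a ∨ D.arc z a) → x ∈ R z

/-- The largest row allowed by the columns. -/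
def Rp (T : V → Finset V) (z : V) : Finset V :=
  Finset.univ.filter fun x => x = z ∨ z ∉ T x

theorem mem_capI {D : OGraph V} {R : V → Finset V} {a x : V} :
    x ∈ capI D R a ↔ ∀ z, (z = a ∨ D.arc z a) → x ∈ R z := by
  simp [capI]

theorem mem_Rp {T : V → Finset V} {z x : V} : x ∈ Rp T z ↔ (x = z ∨ z ∉ T x) := by
  simp [Rp]

theorem mem_cl2 {D : OGraph V} {S : Finset V} {x : V} :
    x ∈ cl D S ↔ ∃ u, (u = x ∨ D.arc u x) ∧ u ∈ S := by
  rw [mem_cl]
  constructor
  · rintro (h | ⟨y, hy, h⟩)
    · exact ⟨x, Or.inl rfl, h⟩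
    · exact ⟨y, Or.inr h, hy⟩
  · rintro ⟨u, rfl | h, hu⟩
    · exact Or.inl hu
    · exact Or.inr ⟨u, hu, h⟩

section feas

variable {D : OGraph V} {R T : V → Finset V}

theorem Feas.sub_Rp (h : Feas D R T) (a : V) : R a ⊆ Rp T a := by
  intro x hx
  rw [mem_Rp]
  by_cases hxa : x = a
  · exact Or.inl hxa
  · exact Or.inr fun h1 => hxa (h.disj a x hx h1)

theorem capI_sub {R : V → Finset V} {a z : V} (hz : z = a ∨ D.arc z a) : capI D R a ⊆ R z :=
  fun _ hx => mem_capI.1 hx z hz

theorem Feas.P_sub_Q (h : Feas D R T) (a : V) : capI D R a ⊆ capI D (Rp T) a :=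
  fun _ hx => mem_capI.2 fun z hz => h.sub_Rp z (mem_capI.1 hx z hz)

theorem Feas.mem_P (h : Feas D R T) (a : V) : a ∈ capI D R a := by
  rw [mem_capI]
  rintro z (rfl | hz)
  · exact h.r0 z
  · exact h.r1 z a hz

theorem Feas.mem_Q (h : Feas D R T) (a : V) : a ∈ capI D (Rp T) a := h.P_sub_Q a (h.mem_P a)

theorem Feas.not_Rp (h : Feas D R T) {a z : V} (hz : D.arc z a) : z ∉ Rp T a := by
  rw [mem_Rp]
  rintro (rfl | h1)
  · exact D.loopless _ hz
  · exact h1 (h.t1 z a hz)

theorem Feas.not_arc (h : Feas D R T) {a x : V} (hx : x ∈ cl D (capI D (Rp T) a)) :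
    ¬ D.arc x a := by
  intro hxa
  obtain ⟨u, hu, huQ⟩ := mem_cl2.1 hx
  rcases hu with rfl | hu
  · exact h.not_Rp hxa (mem_capI.1 huQ a (Or.inl rfl))
  · rcases mem_Rp.1 (mem_capI.1 huQ x (Or.inr hxa)) with rfl | h1
    · exact D.loopless _ hu
    · exact h1 (h.t1 u x hu)

/-- The closed pair is feasible. -/
theorem Feas.cl_feas (h : Feas D R T) :
    Feas D (fun a => cl D (capI D R a)) (fun a => cl D (capI D T a)) := by
  refine ⟨fun a => mem_cl.2 (Or.inl (h.mem_P a)),
    fun a b hab => mem_cl.2 (Or.inr ⟨a, h.mem_P a, hab⟩),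
    fun a => mem_cl.2 (Or.inl (h.symm.mem_P a)),
    fun a b hab => mem_cl.2 (Or.inr ⟨a, h.symm.mem_P a, hab⟩), ?_⟩
  intro a x hx ha
  obtain ⟨u, hu, huP⟩ := mem_cl2.1 hx
  obtain ⟨z, hz, hzY⟩ := mem_cl2.1 ha
  have h1 : u ∈ R z := mem_capI.1 huP z hz
  have h2 : z ∈ T u := mem_capI.1 hzY u hu
  have h3 : u = z := h.disj z u h1 h2
  subst h3
  have h4 : u = a := by
    rcases hz with hz | hz
    · exact hz
    · exact h.disj a u (mem_capI.1 huP a (Or.inl rfl)) (h.t1 u a hz)
  have h5 : u = x := by
    rcases hu with hu | hu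
    · exact hu
    · exact (h.disj u x (h.r1 u x hu) (mem_capI.1 hzY x (Or.inl rfl))).symm
  rw [← h5, ← h4]

theorem Feas.memT (h : Feas D R T) (a x : V) :
    x ∈ (Finset.univ.filter fun x => a ∈ T x) ↔ (x = a ∨ x ∉ Rp T a) := by
  rw [Finset.mem_filter, mem_Rp]
  simp only [Finset.mem_univ, true_and, not_or, not_not]
  constructor
  · intro h1
    by_cases hx : x = a
    · exact Or.inl hx
    · exact Or.inr ⟨hx, h1⟩
  · rintro (rfl | h1)
    · exact h.t0 _
    · exact h1.2

theorem Feas.memNT (h : Feas D R T) (a x : V) :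
    x ∈ (Finset.univ.filter fun x => a ∈ cl D (T x)) ↔ (x = a ∨ x ∉ capI D (Rp T) a) := by
  rw [Finset.mem_filter]
  simp only [Finset.mem_univ, true_and]
  constructor
  · intro h1
    obtain ⟨z, hz, hzT⟩ := mem_cl2.1 h1
    by_contra hcon
    rw [not_or, not_not] at hcon
    obtain ⟨hxa, hxQ⟩ := hcon
    rcases mem_Rp.1 (mem_capI.1 hxQ z hz) with rfl | h2
    · rcases hz with hz | hz
      · exact hxa hz
      · exact h.not_arc (mem_cl.2 (Or.inl hxQ)) hz
    · exact h2 hzT
  · rintro (rfl | h1)
    · exact mem_cl.2 (Or.inl (h.t0 _))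
    · rw [mem_capI] at h1
      push Not at h1
      obtain ⟨z, hz, hzx⟩ := h1
      rw [mem_Rp, not_or, not_not] at hzx
      exact mem_cl2.2 ⟨z, hz, hzx.2⟩

theorem Feas.memY (h : Feas D R T) (z x : V) :
    x ∈ (Finset.univ.filter fun x => z ∈ capI D T x) ↔ (x = z ∨ x ∉ cl D (Rp T z)) := by
  rw [Finset.mem_filter]
  simp only [Finset.mem_univ, true_and]
  constructor
  · intro h1
    by_contra hcon
    rw [not_or, not_not] at hcon
    obtain ⟨hxz, hxR⟩ := hcon
    obtain ⟨u, hu, huR⟩ := mem_cl2.1 hxR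
    rcases mem_Rp.1 huR with rfl | h2
    · rcases hu with hu | hu
      · exact hxz hu.symm
      · exact hxz (h.disj u x (h.r1 u x hu) (mem_capI.1 h1 x (Or.inl rfl)))
    · exact h2 (mem_capI.1 h1 u hu)
  · rintro (rfl | h1)
    · exact h.symm.mem_P _
    · rw [mem_capI]
      intro u hu
      by_contra h2
      exact h1 (mem_cl2.2 ⟨u, hu, mem_Rp.2 (Or.inr h2)⟩)

theorem Feas.memNY (h : Feas D R T) (a x : V)
    (hx : x ∈ (Finset.univ.filter fun x => a ∈ cl D (capI D T x))) :
    (x = a ∨ x ∉ cl D (capI D (Rp T) a)) := by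
  rw [Finset.mem_filter] at hx
  obtain ⟨z, hz, hzY⟩ := mem_cl2.1 hx.2
  have h1 := (h.memY z x).1 (Finset.mem_filter.2 ⟨Finset.mem_univ _, hzY⟩)
  rcases h1 with rfl | h1
  · rcases hz with hz | hz
    · exact Or.inl hz
    · exact Or.inr fun h2 => h.not_arc h2 hz
  · exact Or.inr fun h2 => h1 (cl_mono (capI_sub hz) h2)

end feas

variable {D : OGraph V} {w : V → ℝ} {R T : V → Finset V}

theorem Feas.sumT (h : Feas D R T) :
    ∑ x, w x * cc D w (T x) = ∑ a, w a * (W w (Rp T a) - W w (capI D (Rp T) a)) := by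
  have e1 : ∑ x, w x * cc D w (T x) =
      ∑ x, w x * W w (cl D (T x)) - ∑ x, w x * W w (T x) := by
    rw [← Finset.sum_sub_distrib]
    refine Finset.sum_congr rfl fun x _ => ?_
    unfold cc; ring
  rw [e1, swap w (fun x => cl D (T x)), swap w T, ← Finset.sum_sub_distrib]
  refine Finset.sum_congr rfl fun a _ => ?_
  rw [W_compl_eq (h.mem_Q a) (h.memNT a), W_compl_eq (h.sub_Rp a (h.r0 a)) (h.memT a)]
  ring

theorem Feas.sumY (hw : ∀ v, 0 ≤ w v) (h : Feas D R T) :
    ∑ x, w x * cc D w (capI D T x) ≤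
      ∑ a, w a * (W w (cl D (Rp T a)) - W w (cl D (capI D (Rp T) a))) := by
  have e1 : ∑ x, w x * cc D w (capI D T x) =
      ∑ x, w x * W w (cl D (capI D T x)) - ∑ x, w x * W w (capI D T x) := by
    rw [← Finset.sum_sub_distrib]
    refine Finset.sum_congr rfl fun x _ => ?_
    unfold cc; ring
  rw [e1, swap w (fun x => cl D (capI D T x)), swap w (capI D T), ← Finset.sum_sub_distrib]
  refine Finset.sum_le_sum fun a _ => ?_
  have h1 := W_compl_le hw (mem_cl.2 (Or.inl (h.mem_Q a))) (h.memNY a)
  have h2 := W_compl_eq (w := w) (mem_cl.2 (Or.inl (h.sub_Rp a (h.r0 a)))) (h.memY a)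
  rw [h2, ← mul_sub]
  refine mul_le_mul_of_nonneg_left ?_ (hw a)
  linarith

/-- Fact (B). -/
theorem OptP.factB (hw : ∀ v, 0 < w v) (h : OptP D w R T) (a : V) (S : Finset V)
    (h1 : capI D R a ⊆ S) (h2 : S ⊆ capI D (Rp T) a) : cc D w (capI D R a) ≤ cc D w S := by
  classical
  have hw0 : ∀ v, 0 ≤ w v := fun v => (hw v).le
  have key : ∀ J : Finset V, (∀ z ∈ J, z = a ∨ D.arc z a) →
      cc D w (S.filter fun x => ∀ z ∈ J, x ∈ R z) ≤ cc D w S := by
    intro J
    induction J using Finset.induction_on with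
    | empty => intro _; simp
    | insert z J hz ih =>
      intro hJ
      have h3 := ih fun z' hz' => hJ z' (Finset.mem_insert_of_mem hz')
      set SJ := S.filter fun x => ∀ z ∈ J, x ∈ R z with hSJ
      have e : (S.filter fun x => ∀ z' ∈ insert z J, x ∈ R z') = SJ ∩ R z := by
        ext x
        rw [hSJ, Finset.mem_inter, Finset.mem_filter, Finset.mem_filter]
        constructor
        · rintro ⟨h4, h5⟩
          exact ⟨⟨h4, fun z' hz' => h5 z' (Finset.mem_insert_of_mem hz')⟩,
            h5 z (Finset.mem_insert_self _ _)⟩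
        · rintro ⟨⟨h4, h5⟩, h6⟩
          refine ⟨h4, fun z' hz' => ?_⟩
          rcases Finset.mem_insert.1 hz' with rfl | hz'
          · exact h6
          · exact h5 z' hz'
      rw [e]
      have h4 := cc_submod (D := D) hw0 SJ (R z)
      have h5 : cc D w (R z) ≤ cc D w (SJ ∪ R z) := by
        refine h.row hw z _ Finset.subset_union_right ?_
        intro x hx
        rcases Finset.mem_union.1 hx with hx | hx
        · exact mem_Rp.1 (mem_capI.1 (h2 (Finset.mem_filter.1 hx).1) z
            (hJ z (Finset.mem_insert_self _ _)))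
        · exact mem_Rp.1 (h.toFeas.sub_Rp z hx)
      linarith
  have h3 := key (Finset.univ.filter fun z => z = a ∨ D.arc z a) (fun z hz =>
    (Finset.mem_filter.1 hz).2)
  have e : (S.filter fun x => ∀ z ∈ (Finset.univ.filter fun z => z = a ∨ D.arc z a), x ∈ R z) =
      capI D R a := by
    ext x
    rw [Finset.mem_filter, mem_capI]
    constructor
    · rintro ⟨_, h5⟩ z hz
      exact h5 z (Finset.mem_filter.2 ⟨Finset.mem_univ _, hz⟩)
    · intro h5
      exact ⟨h1 (mem_capI.2 h5), fun z hz => h5 z (Finset.mem_filter.1 hz).2⟩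
  rw [e] at h3
  exact h3

/-- The column inequality (H1). -/
theorem OptP.hall (hw : ∀ v, 0 < w v) (h : OptP D w R T) (u : V) (K : Finset V)
    (hK : ∀ z ∈ K, z ∉ T u ∧ u ∉ R z) :
    W w K ≤ W w (K.biUnion fun z => cl D {z} \ cl D (T u)) := by
  have h1 : cc D w (T u) ≤ cc D w (T u ∪ K) := by
    refine h.symm.row hw u _ Finset.subset_union_left ?_
    intro x hx
    rcases Finset.mem_union.1 hx with hx | hx
    · by_cases hxu : x = u
      · exact Or.inl hxu
      · exact Or.inr fun h2 => hxu (h.disj x u h2 hx).symm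
    · exact Or.inr (hK x hx).2
  have h2 : Disjoint (T u) K := by
    rw [Finset.disjoint_left]
    intro z hz hz'
    exact (hK z hz').1 hz
  have e : (K.biUnion fun z => cl D {z} \ cl D (T u)) = cl D K \ cl D (T u) := by
    ext x
    simp only [Finset.mem_biUnion, Finset.mem_sdiff, mem_cl2, Finset.mem_singleton]
    constructor
    · rintro ⟨z, hz, ⟨u', hu', rfl⟩, h3⟩
      exact ⟨⟨u', hu', hz⟩, h3⟩
    · rintro ⟨⟨u', hu', hz⟩, h3⟩
      exact ⟨u', hz, ⟨u', hu', rfl⟩, h3⟩
  have h3 : W w (cl D (T u ∪ K)) = W w (cl D (T u)) + W w (cl D K \ cl D (T u)) := by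
    rw [cl_union, ← Finset.union_sdiff_self_eq_union, W_union Finset.disjoint_sdiff]
  have h4 := W_union (w := w) h2
  rw [e]
  unfold cc at h1
  rw [h3, h4] at h1
  linarith

/-- The inequality (**). -/
theorem OptP.star (hw : ∀ v, 0 < w v) (h : OptP D w R T) :
    ∑ z, w z * (cc D w (Rp T z) - cc D w (R z)) ≤
      ∑ a, w a * (cc D w (capI D (Rp T) a) - cc D w (capI D R a)) := by
  classical
  have hw0 : ∀ v, 0 ≤ w v := fun v => (hw v).le
  have subR : ∀ z (I : Finset V), R z ∪ (Rp T z \ I) ⊆ Rp T z := fun z I =>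
    Finset.union_subset (h.toFeas.sub_Rp z) Finset.sdiff_subset
  have subP : ∀ a (I : Finset V),
      capI D R a ∪ (capI D (Rp T) a \ I) ⊆ capI D (Rp T) a := fun a I =>
    Finset.union_subset (h.toFeas.P_sub_Q a) Finset.sdiff_subset
  have key : ∀ I : Finset V,
      ∑ z, w z * (cc D w (Rp T z) - kap D w (R z ∪ (Rp T z \ I)) (Rp T z)) ≤
      ∑ a, w a * (cc D w (capI D (Rp T) a) -
        kap D w (capI D R a ∪ (capI D (Rp T) a \ I)) (capI D (Rp T) a)) := by
    intro I
    induction I using Finset.induction_on with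
    | empty =>
      have e1 : ∀ z, R z ∪ (Rp T z \ ∅) = Rp T z := fun z => by
        rw [Finset.sdiff_empty]
        exact Finset.union_eq_right.2 (h.toFeas.sub_Rp z)
      have e2 : ∀ a, capI D R a ∪ (capI D (Rp T) a \ ∅) = capI D (Rp T) a := fun a => by
        rw [Finset.sdiff_empty]
        exact Finset.union_eq_right.2 (h.toFeas.P_sub_Q a)
      simp only [e1, e2, kap_self, sub_self, mul_zero, Finset.sum_const_zero]
      exact le_rfl
    | insert u I hu ih =>
      set f : V → ℝ := fun z => kap D w (R z ∪ (Rp T z \ I)) (Rp T z) -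
        kap D w (R z ∪ (Rp T z \ insert u I)) (Rp T z) with hf
      set g : V → ℝ := fun a =>
        kap D w (capI D R a ∪ (capI D (Rp T) a \ I)) (capI D (Rp T) a) -
        kap D w (capI D R a ∪ (capI D (Rp T) a \ insert u I)) (capI D (Rp T) a) with hg
      have hf0 : ∀ z, 0 ≤ f z := fun z => sub_nonneg.2 (kap_anti
        (Finset.union_subset_union_right (Finset.sdiff_subset_sdiff subset_rfl
          (Finset.subset_insert _ _))) (subR z I))
      have hg0 : ∀ a, 0 ≤ g a := fun a => sub_nonneg.2 (kap_anti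
        (Finset.union_subset_union_right (Finset.sdiff_subset_sdiff subset_rfl
          (Finset.subset_insert _ _))) (subP a I))
      have hU : ∀ z, f z ≠ 0 → z ∈ Finset.univ.filter fun z => z ∉ T u ∧ u ∉ R z := by
        intro z hz
        rw [Finset.mem_filter]
        refine ⟨Finset.mem_univ _, ?_⟩
        by_contra hcon
        apply hz
        have huz : u ∈ R z ∨ u ∉ Rp T z := by
          by_cases h1 : u ∈ R z
          · exact Or.inl h1
          · refine Or.inr fun h2 => hcon ⟨?_, h1⟩
            rcases mem_Rp.1 h2 with rfl | h3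
            · exact absurd (h.r0 _) h1
            · exact h3
        have e : R z ∪ (Rp T z \ insert u I) = R z ∪ (Rp T z \ I) := by
          ext x
          simp only [Finset.mem_union, Finset.mem_sdiff, Finset.mem_insert, not_or]
          constructor
          · rintro (h1 | h1)
            · exact Or.inl h1
            · exact Or.inr ⟨h1.1, h1.2.2⟩
          · rintro (h1 | h1)
            · exact Or.inl h1
            · by_cases hxu : x = u
              · subst hxu
                rcases huz with h2 | h2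
                · exact Or.inl h2
                · exact absurd h1.1 h2
              · exact Or.inr ⟨h1.1, hxu, h1.2⟩
        simp only [hf, e, sub_self]
      have hfg : ∀ z, ∀ a ∈ cl D {z} \ cl D (T u), f z ≤ g a := by
        intro z a ha
        obtain ⟨ha1, ha2⟩ := Finset.mem_sdiff.1 ha
        have hza : z = a ∨ D.arc z a := by
          obtain ⟨u', hu', hu''⟩ := mem_cl2.1 ha1
          rw [Finset.mem_singleton] at hu''
          rw [← hu'']
          exact hu'
        have huQ : u ∈ capI D (Rp T) a := by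
          by_contra h1
          exact ha2 (Finset.mem_filter.1 ((h.toFeas.memNT a u).2 (Or.inr h1))).2
        obtain ⟨S1, h11, h12, h13⟩ := kap_mem (D := D) (w := w) (subP a I)
        obtain ⟨S2, h21, h22, h23⟩ := kap_mem (D := D) (w := w) (subR z (insert u I))
        have h3 : kap D w (R z ∪ (Rp T z \ I)) (Rp T z) ≤ cc D w (S1 ∪ S2) := by
          refine kap_le ?_ (Finset.union_subset (h12.trans (capI_sub hza)) h22)
          intro x hx
          rcases Finset.mem_union.1 hx with hx | hx
          · exact Finset.mem_union_right _ (h21 (Finset.mem_union_left _ hx))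
          · obtain ⟨hx1, hx2⟩ := Finset.mem_sdiff.1 hx
            by_cases hxu : x = u
            · subst hxu
              exact Finset.mem_union_left _ (h11 (Finset.mem_union_right _
                (Finset.mem_sdiff.2 ⟨huQ, hx2⟩)))
            · refine Finset.mem_union_right _ (h21 (Finset.mem_union_right _
                (Finset.mem_sdiff.2 ⟨hx1, fun h4 => ?_⟩)))
              rcases Finset.mem_insert.1 h4 with h4 | h4
              · exact hxu h4
              · exact hx2 h4
        have h4 : kap D w (capI D R a ∪ (capI D (Rp T) a \ insert u I)) (capI D (Rp T) a) ≤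
            cc D w (S1 ∩ S2) := by
          refine kap_le ?_ (Finset.inter_subset_left.trans h12)
          intro x hx
          rcases Finset.mem_union.1 hx with hx | hx
          · exact Finset.mem_inter.2 ⟨h11 (Finset.mem_union_left _ hx),
              h21 (Finset.mem_union_left _ (capI_sub hza hx))⟩
          · obtain ⟨hx1, hx2⟩ := Finset.mem_sdiff.1 hx
            refine Finset.mem_inter.2 ⟨h11 (Finset.mem_union_right _ (Finset.mem_sdiff.2
              ⟨hx1, fun h5 => hx2 (Finset.mem_insert_of_mem h5)⟩)),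
              h21 (Finset.mem_union_right _ (Finset.mem_sdiff.2 ⟨capI_sub hza hx1, hx2⟩))⟩
        have h5 := cc_submod (D := D) hw0 S1 S2
        simp only [hf, hg]
        rw [h13, h23]
        linarith
      have hmain := layer hw0 (Finset.univ.filter fun z => z ∉ T u ∧ u ∉ R z)
        (fun z => cl D {z} \ cl D (T u)) (fun K hK => h.hall hw u K fun z hz =>
          (Finset.mem_filter.1 (hK hz)).2) _ f g hf0 hg0 hU hfg rfl
      have e1 : ∑ z, w z * (cc D w (Rp T z) -
          kap D w (R z ∪ (Rp T z \ insert u I)) (Rp T z)) =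
          ∑ z, w z * (cc D w (Rp T z) - kap D w (R z ∪ (Rp T z \ I)) (Rp T z)) +
          ∑ z, w z * f z := by
        rw [← Finset.sum_add_distrib]
        refine Finset.sum_congr rfl fun z _ => ?_
        simp only [hf]; ring
      have e2 : ∑ a, w a * (cc D w (capI D (Rp T) a) -
          kap D w (capI D R a ∪ (capI D (Rp T) a \ insert u I)) (capI D (Rp T) a)) =
          ∑ a, w a * (cc D w (capI D (Rp T) a) -
          kap D w (capI D R a ∪ (capI D (Rp T) a \ I)) (capI D (Rp T) a)) +
          ∑ a, w a * g a := by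
        rw [← Finset.sum_add_distrib]
        refine Finset.sum_congr rfl fun a _ => ?_
        simp only [hg]; ring
      rw [e1, e2]
      linarith
  have h1 := key Finset.univ
  have h2 : ∑ z, w z * (cc D w (Rp T z) - cc D w (R z)) ≤
      ∑ z, w z * (cc D w (Rp T z) - kap D w (R z ∪ (Rp T z \ Finset.univ)) (Rp T z)) := by
    refine Finset.sum_le_sum fun z _ => mul_le_mul_of_nonneg_left ?_ (hw0 z)
    have : kap D w (R z ∪ (Rp T z \ Finset.univ)) (Rp T z) ≤ cc D w (R z) := by
      refine kap_le ?_ (h.toFeas.sub_Rp z)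
      intro x hx
      rcases Finset.mem_union.1 hx with hx | hx
      · exact hx
      · exact absurd (Finset.mem_univ x) (Finset.mem_sdiff.1 hx).2
    linarith
  have h3 : ∑ a, w a * (cc D w (capI D (Rp T) a) -
        kap D w (capI D R a ∪ (capI D (Rp T) a \ Finset.univ)) (capI D (Rp T) a)) ≤
      ∑ a, w a * (cc D w (capI D (Rp T) a) - cc D w (capI D R a)) := by
    refine Finset.sum_le_sum fun a _ => mul_le_mul_of_nonneg_left ?_ (hw0 a)
    obtain ⟨S, hS1, hS2, hS3⟩ := kap_mem (D := D) (w := w) (subP a Finset.univ)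
    have := h.factB hw a S (Finset.subset_union_left.trans hS1) hS2
    rw [hS3]
    linarith
  linarith

/-- The comparison of the two minimum cuts. -/
theorem OptP.main (hw : ∀ v, 0 < w v) (h : OptP D w R T) :
    En D w (capI D R) (capI D T) ≤ En D w R T := by
  have hw0 : ∀ v, 0 ≤ w v := fun v => (hw v).le
  have h1 := h.star hw
  have h2 := h.toFeas.sumT (w := w)
  have h3 := h.toFeas.sumY hw0
  have e1 : ∑ z, w z * (cc D w (Rp T z) - cc D w (R z)) =
      ∑ z, w z * (W w (cl D (Rp T z)) - W w (Rp T z)) - ∑ z, w z * cc D w (R z) := by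
    rw [← Finset.sum_sub_distrib]
    refine Finset.sum_congr rfl fun z _ => ?_
    unfold cc; ring
  have e2 : ∑ a, w a * (cc D w (capI D (Rp T) a) - cc D w (capI D R a)) =
      ∑ a, w a * (W w (cl D (capI D (Rp T) a)) - W w (capI D (Rp T) a)) -
        ∑ a, w a * cc D w (capI D R a) := by
    rw [← Finset.sum_sub_distrib]
    refine Finset.sum_congr rfl fun z _ => ?_
    unfold cc; ring
  have e3 : ∑ z, w z * (W w (cl D (Rp T z)) - W w (Rp T z)) -
      ∑ a, w a * (W w (cl D (capI D (Rp T) a)) - W w (capI D (Rp T) a)) =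
      ∑ a, w a * (W w (cl D (Rp T a)) - W w (cl D (capI D (Rp T) a))) -
      ∑ a, w a * (W w (Rp T a) - W w (capI D (Rp T) a)) := by
    rw [← Finset.sum_sub_distrib, ← Finset.sum_sub_distrib]
    refine Finset.sum_congr rfl fun z _ => ?_
    ring
  unfold En
  rw [e1, e2] at h1
  linarith

/-- For every oriented graph with at least one arc and all positive weights: not all proper
nonempty sets `X` have `c(N[X]) < c(X)`. -/
theorem no_strict (D : OGraph V) (w : V → ℝ) (hw : ∀ v, 0 < w v) (z0 a0 : V)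
    (hz : D.arc z0 a0) (hG : ∀ X : Finset V, X.Nonempty → X ≠ Finset.univ →
      cc D w (cl D X) < cc D w X) : False := by
  have hw0 : ∀ v, 0 ≤ w v := fun v => (hw v).le
  obtain ⟨R, T, h⟩ := exists_optP D w
  have h1 := h.main hw
  have h2 := h.min _ _ h.toFeas.cl_feas
  have hle : ∀ X : Finset V, X.Nonempty → cc D w (cl D X) ≤ cc D w X := by
    intro X hX
    by_cases hXu : X = Finset.univ
    · have : cl D X = X := by
        rw [hXu]
        exact Finset.eq_univ_iff_forall.2 fun x => mem_cl.2 (Or.inl (Finset.mem_univ x))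
      rw [this]
    · exact (hG X hX hXu).le
  have h3 : ∑ a, w a * cc D w (cl D (capI D T a)) ≤ ∑ a, w a * cc D w (capI D T a) :=
    Finset.sum_le_sum fun a _ => mul_le_mul_of_nonneg_left
      (hle _ ⟨a, h.toFeas.symm.mem_P a⟩) (hw0 a)
  have h4 : ∑ a, w a * cc D w (cl D (capI D R a)) < ∑ a, w a * cc D w (capI D R a) := by
    refine Finset.sum_lt_sum (fun a _ => mul_le_mul_of_nonneg_left
      (hle _ ⟨a, h.toFeas.mem_P a⟩) (hw0 a)) ⟨a0, Finset.mem_univ _, ?_⟩
    refine mul_lt_mul_of_pos_left (hG _ ⟨a0, h.toFeas.mem_P a0⟩ ?_) (hw a0)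
    intro he
    have h5 : z0 ∈ capI D R a0 := by
      rw [he]; exact Finset.mem_univ _
    exact h.toFeas.not_Rp hz (h.toFeas.sub_Rp a0 (mem_capI.1 h5 a0 (Or.inl rfl)))
  unfold En at h1 h2
  linarith

end Vale.Agent.P038.H382
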