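import Vale.Agent.P038.H382.M13
import Vale.Agent.P038.H71.Plan
import Vale.Agent.P038.H560.Strong

/-!
# P038 (H382): there is no normal form, hence every oriented graph satisfies the conjecture
-/

namespace Vale.Agent.P038.H382

open Finset Vale.Agent.P038.H139

universe u

/-- There is no normal form with constant `1`. -/
theorem no_nf {V : Type u} [Fintype V] [Nonempty V] (D1 : OGraph V) (w1 : V → ℝ) :
    ¬ NF 1 D1 w1 := by
  classical
  intro h1
  obtain ⟨D, w, h⟩ := exists_nfmin h1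
  -- an arc
  obtain ⟨z0⟩ := ‹Nonempty V›
  have hne : (N1 D z0).Nonempty := by
    rw [Finset.nonempty_iff_ne_empty]
    intro he
    have h2 := h.one z0
    unfold Fw at h2
    rw [he] at h2
    have h3 := W_nonneg h.toNF.nonneg (N2 D z0)
    have h4 : W w (∅ : Finset V) = 0 := by simp [W]
    rw [h4] at h2
    linarith
  obtain ⟨a0, ha0⟩ := hne
  refine no_strict D w h.pos z0 a0 (mem_N1.1 ha0) ?_
  intro X hX hXu
  obtain ⟨y, hy⟩ := H560.strong h.ind D w h.toNF.nonneg h.toNF.posF X hX hXu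
  have hy1 : y ∈ cl D X ∧ y ∉ X := by
    unfold H560.L1 at hy
    exact Finset.mem_sdiff.1 hy
  have hyL : y ∈ H71.Lx D X := by
    refine Finset.mem_sdiff.2 ⟨?_, hy1.2⟩
    rcases mem_cl.1 hy1.1 with h2 | h2
    · exact absurd h2 hy1.2
    · exact mem_outS.2 h2
  have hss : (∅ : Finset V) ⊂ H71.Lx D X := Finset.empty_ssubset.2 ⟨y, hyL⟩
  have h2 := H71.plan_lt h X ∅ hss
  set L := H71.Lx D X with hL
  have hLX : Disjoint X L := by
    rw [hL]
    exact Finset.disjoint_sdiff
  have e1 : cl D X = X ∪ L := by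
    ext z
    rw [mem_cl, Finset.mem_union, hL]
    unfold H71.Lx
    rw [Finset.mem_sdiff, mem_outS]
    tauto
  have e2 : cl D (cl D X) = X ∪ (cl D L \ X) := by
    rw [e1, cl_union, e1]
    ext z
    simp only [Finset.mem_union, Finset.mem_sdiff]
    have : z ∈ L → z ∈ cl D L := fun h3 => mem_cl.2 (Or.inl h3)
    tauto
  have e3 : W w (cl D (cl D X)) = W w X + W w (cl D L \ X) := by
    rw [e2, W_union Finset.disjoint_sdiff]
  have e4 : W w (cl D X) = W w X + W w L := by
    rw [e1, W_union hLX]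
  have e5 : cl D (∅ : Finset V) = ∅ := by
    rw [Finset.eq_empty_iff_forall_notMem]
    intro z hz
    rw [mem_cl] at hz
    simp at hz
  have e6 : W w (∅ : Finset V) = 0 := by simp [W]
  unfold H71.dd at h2
  rw [e5, Finset.empty_sdiff, e6] at h2
  unfold cc
  rw [e3, e4]
  linarith

/-- The weighted form of Seymour's second neighbourhood conjecture. -/
theorem snc {V : Type u} [Fintype V] [Nonempty V] (D : OGraph V) (w : V → ℝ)
    (hw : ∀ v, 0 ≤ w v) : ∃ v, ∑ u ∈ N1 D v, w u ≤ ∑ u ∈ N2 D v, w u := by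
  obtain ⟨v, hv⟩ := snc_of_noNF (lam := 1) zero_le_one (fun V _ _ D w => no_nf D w) D w hw
  exact ⟨v, by rwa [one_mul] at hv⟩

end Vale.Agent.P038.H382
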